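import Vale.Agent.Lib.P259.Assembly
import Vale.Agent.Lib.P259.QInst
import Vale.Agent.Lib.P259.NonemptyCoh

/-!
# P259: the Grothendieck homotopy hypothesis, for arbitrary models of the two localizations

The ordinary localization of a category at a class of maps is only defined up to equivalence.  Here
the statement is made for every pair of models: `L₁ : Top' ⥤ 𝓐` is any localization functor of the
category of compactly generated spaces at the weak homotopy equivalences, `L₂ : C-Gpd ⥤ 𝓑` any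
localization functor of the category of `C`-infinity-groupoids at the weak equivalences, and the
induced functor is any functor `G : 𝓐 ⥤ 𝓑` with `L₁ ⋙ G ≅ Π ⋙ L₂`.
-/

open CategoryTheory Vale.Agent.P259

namespace Vale.Agent.Results.P259.AnyLocalization

universe v₁ u₁ v₂ u₂

theorem aux {C : Coherator} (D : DiscFunctor C.C)
    (h : whe.IsInvertedBy (D.Pi ⋙ C.weq.Q)) (hE : (D.Ho h).IsEquivalence)
    (𝓐 : Type u₁) [Category.{v₁} 𝓐] (𝓑 : Type u₂) [Category.{v₂} 𝓑]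
    (L₁ : Top' ⥤ 𝓐) (L₂ : C.C.Gpd ⥤ 𝓑) [L₁.IsLocalization whe] [L₂.IsLocalization C.weq]
    (G : 𝓐 ⥤ 𝓑) (e : L₁ ⋙ G ≅ D.Pi ⋙ L₂) : G.IsEquivalence := by
  let E₁ := Localization.equivalenceFromModel L₁ whe
  let E₂ := Localization.equivalenceFromModel L₂ C.weq
  let i₁ : whe.Q ⋙ E₁.functor ≅ L₁ := Localization.qCompEquivalenceFromModelFunctorIso L₁ whe
  let i₂ : C.weq.Q ⋙ E₂.functor ≅ L₂ := Localization.qCompEquivalenceFromModelFunctorIso L₂ C.weq
  have hfac : whe.Q ⋙ D.Ho h = D.Pi ⋙ C.weq.Q := Localization.Construction.fac _ h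
  let j : whe.Q ⋙ (E₁.functor ⋙ G) ≅ whe.Q ⋙ (D.Ho h ⋙ E₂.functor) :=
    (Functor.associator _ _ _).symm ≪≫ Functor.isoWhiskerRight i₁ G ≪≫ e ≪≫
      Functor.isoWhiskerLeft D.Pi i₂.symm ≪≫ (Functor.associator _ _ _).symm ≪≫
      Functor.isoWhiskerRight (eqToIso hfac.symm) E₂.functor ≪≫ Functor.associator _ _ _
  let k : E₁.functor ⋙ G ≅ D.Ho h ⋙ E₂.functor :=
    Localization.liftNatIso whe.Q whe _ _ _ _ j
  have h1 : (D.Ho h ⋙ E₂.functor).IsEquivalence := inferInstance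
  have h2 : (E₁.functor ⋙ G).IsEquivalence := Functor.isEquivalence_of_iso k.symm
  exact Functor.isEquivalence_of_comp_left E₁.functor G

/-- For every coherator `C` there is a disc functor `D` such that `Π = Hom_Top(D(-), -)` sends weak
homotopy equivalences to weak equivalences and the functor induced by `Π` between the ordinary
localizations is an equivalence. -/
theorem result :
    Nonempty Coherator ∧
      ∀ C : Coherator, ∃ D : DiscFunctor C.C,
        (∀ (X Y : Top') (f : X ⟶ Y), whe f → C.weq (D.Pi.map f)) ∧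
          ∀ (𝓐 : Type u₁) [Category.{v₁} 𝓐] (𝓑 : Type u₂) [Category.{v₂} 𝓑]
            (L₁ : Top' ⥤ 𝓐) (L₂ : C.C.Gpd ⥤ 𝓑)
            [L₁.IsLocalization whe] [L₂.IsLocalization C.weq],
            (∃ G : 𝓐 ⥤ 𝓑, Nonempty (L₁ ⋙ G ≅ D.Pi ⋙ L₂)) ∧
              ∀ G : 𝓐 ⥤ 𝓑, Nonempty (L₁ ⋙ G ≅ D.Pi ⋙ L₂) → G.IsEquivalence := by
  refine ⟨nonempty_coherator, fun C => ?_⟩
  obtain ⟨⟨D⟩, hD⟩ := homotopyHypothesis_of_qData C fun D => ⟨qData D⟩
  obtain ⟨h1, h2, h3⟩ := hD D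
  refine ⟨D, h1, ?_⟩
  intro 𝓐 _ 𝓑 _ L₁ L₂ _ _
  refine ⟨?_, fun G ⟨e⟩ => aux D h2 h3 𝓐 𝓑 L₁ L₂ G e⟩
  have hinv : whe.IsInvertedBy (D.Pi ⋙ L₂) := by
    intro X Y f hf
    exact Localization.inverts L₂ C.weq _ (h1 X Y f hf)
  exact ⟨Localization.lift (D.Pi ⋙ L₂) hinv L₁, ⟨Localization.fac _ hinv L₁⟩⟩

end Vale.Agent.Results.P259.AnyLocalization
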