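import Vale.Agent.Lib.P259.Assembly
import Vale.Agent.Lib.P259.QInst
import Vale.Agent.Lib.P259.NonemptyCoh

/-!
# P259: the Grothendieck homotopy hypothesis

Coherators exist, and for every coherator `C` and every disc functor `D : C ⥤ Top`, the fundamental
infinity-groupoid functor `Π : Top ⥤ Gpd C` sends weak homotopy equivalences to weak equivalences of
infinity-groupoids and induces an equivalence of the localizations.
-/

open CategoryTheory Vale.Agent.P259

theorem Vale.Agent.Results.P259.HomotopyHypothesis.result :
    Nonempty Coherator ∧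
      ∀ C : Coherator,
        Nonempty (DiscFunctor C.C) ∧
          ∀ D : DiscFunctor C.C,
            (∀ (X Y : Top') (f : X ⟶ Y), IsWhe f.hom.hom → Coherator.IsWeq (D.Pi.map f).hom) ∧
              ∃ h : whe.IsInvertedBy (D.Pi ⋙ C.weq.Q), (D.Ho h).IsEquivalence :=
  ⟨nonempty_coherator, fun C => homotopyHypothesis_of_qData C fun D => ⟨qData D⟩⟩
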