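import Vale.Agent.Results.P259.HomotopyHypothesis

/-!
# P259: the Grothendieck homotopy hypothesis, in the language of localizers

Mathlib: for classes `W₁`, `W₂` of morphisms of categories `C₁`, `C₂`, a
`LocalizerMorphism W₁ W₂` is a functor `C₁ ⥤ C₂` which sends `W₁` into `W₂`, and it is a
`IsLocalizedEquivalence` if the functor `C₁[W₁⁻¹] ⥤ C₂[W₂⁻¹]` induced between the ordinary
localizations is an equivalence of categories.
-/

open CategoryTheory Vale.Agent.P259

namespace Vale.Agent.Results.P259.LocalizedEquivalence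

/-- Coherators exist.  For every coherator `C` there is a disc functor, and for every disc functor
`D` of `C` the fundamental infinity-groupoid functor `D.Pi = Hom_Top (D(-), -)` is (the functor
of) a morphism from the localizer (compactly generated spaces, weak homotopy equivalences) to the
localizer (`C`-infinity-groupoids, weak equivalences) which induces an equivalence of categories
`Ho(Top) ⥤ C-Gpd[W⁻¹]`. -/
theorem result :
    Nonempty Coherator ∧ ∀ C : Coherator, Nonempty (DiscFunctor C.C) ∧
      ∀ D : DiscFunctor C.C, ∃ Φ : LocalizerMorphism whe C.weq,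
        Φ.functor = D.Pi ∧ Φ.IsLocalizedEquivalence := by
  refine ⟨HomotopyHypothesis.result.1, fun C => ?_⟩
  obtain ⟨hD, hD2⟩ := HomotopyHypothesis.result.2 C
  refine ⟨hD, fun D => ?_⟩
  obtain ⟨h1, h2, h3⟩ := hD2 D
  let Φ : LocalizerMorphism whe C.weq :=
    { functor := D.Pi
      map := fun X Y f hf => h1 X Y f hf }
  refine ⟨Φ, rfl, ?_⟩
  have hfac : whe.Q ⋙ D.Ho h2 = D.Pi ⋙ C.weq.Q := Localization.Construction.fac _ h2
  have : CatCommSq Φ.functor whe.Q C.weq.Q (D.Ho h2) := ⟨eqToIso hfac.symm⟩
  exact LocalizerMorphism.IsLocalizedEquivalence.mk' Φ whe.Q C.weq.Q (D.Ho h2)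

end Vale.Agent.Results.P259.LocalizedEquivalence
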